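import Vale.Agent.P002E46.St
import Vale.Agent.P002B14.An
import Vale.Agent.P002D97.Bun
import Vale.Agent.P002F46.Prod
import Vale.Agent.P002B14.ThinM

/-!
# P002: the clauses over compact Riemann surfaces
-/

namespace Vale.Agent.P002E

open Set Filter Topology Metric Vale.Agent.P002Z Vale.Agent.P002A Vale.Agent.P002.H252
  Vale.Agent.P002D Vale.Agent.P002B14
open scoped Manifold

theorem q1r {G : Type} [Group G] {B : Set G} (h : Q1 B) : Q1R B :=
  ⟨fun _ _ θ _ _ _ => represents θ, h⟩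

theorem map_id' {X : Type} [TopologicalSpace X] (x : X) (γ : FundamentalGroup X x) :
    FundamentalGroup.map (ContinuousMap.id X) x γ = γ := by
  obtain ⟨c, rfl⟩ := Path.Homotopic.Quotient.mk_surjective γ
  rfl

theorem disc_exists {M : Type} [TopologicalSpace M] [T1Space M] [ChartedSpace ℂ M] {D : Set M}
    (hD : D.Finite) [PathConnectedSpace ↥Dᶜ] (x : ↥Dᶜ) (q : M) : ∃ γ, IsDiscLoop D x q γ := by
  let e := chartAt ℂ q
  have hq : q ∈ e.source := mem_chart_source ℂ q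
  have hz : e q ∈ e.target := e.map_source hq
  have hsq : e.symm (e q) = q := e.left_inv hq
  have hN : ∀ O ∈ 𝓝 q, e.symm ⁻¹' O ∈ 𝓝 (e q) := fun O hO =>
    e.continuousAt_symm hz (hsq.symm ▸ hO)
  obtain ⟨ε, hε, hb⟩ := nhds_basis_closedBall.mem_iff.1 (inter_mem (e.open_target.mem_nhds hz)
    (hN _ (eventually_nhdsWithin_iff.1 (eventually_notMem_of_finite hD q))))
  have hm : ∀ u ∈ closedBall (0 : ℂ) 1, e q + ε • u ∈ closedBall (e q) ε := fun u hu => by
    rw [mem_closedBall_iff_norm, add_sub_cancel_left, norm_smul, Real.norm_of_nonneg hε.le]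
    exact mul_le_of_le_one_right hε.le (mem_closedBall_zero_iff.1 hu)
  obtain ⟨γ, φ, y, σ, c, h1, h2, h3, h4, h5⟩ := P002F.around_exists x
    (φ := fun u => e.symm (e q + ε • u))
    (fun u hu => (e.continuousAt_symm (hb (hm u hu)).1).comp (f := fun u : ℂ => e q + ε • u)
      (by fun_prop)) fun u hu hDu => by
      have h2 : e.symm (e q + ε • u) = q := by
        by_contra hne
        exact (hb (hm u hu)).2 hne hDu
      have h3 := congrArg e h2
      rw [e.right_inv (hb (hm u hu)).1] at h3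
      exact (smul_eq_zero.1 (add_eq_left.1 h3)).resolve_left hε.ne'
  exact ⟨γ, φ, y, σ, c, fun u hu => (h1 u hu).continuousWithinAt, by simpa [hsq] using h2,
    h3, h4, h5⟩

variable {k : ℕ} {S : Fin k → Type} [∀ i, TopologicalSpace (S i)] [∀ i, T2Space (S i)]
  [∀ i, CompactSpace (S i)] [∀ i, ConnectedSpace (S i)] [∀ i, ChartedSpace ℂ (S i)]
  [∀ i, IsManifold 𝓘(ℂ) 1 (S i)] (D : ∀ i, Set (S i)) (hD : ∀ i, (D i).Finite)

include hD

theorem pcs (i : Fin k) : PathConnectedSpace ↥(D i)ᶜ :=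
  isPathConnected_iff_pathConnectedSpace.1 (isPathConnected_compl_finite (hD i))

theorem fgs (i : Fin k) (x : ↥(D i)ᶜ) : Group.FG (FundamentalGroup ↥(D i)ᶜ x) := by
  obtain ⟨g, n, m, δ, hδ, -⟩ := curve_isOrb (hD i) x
  exact Group.fg_iff.2 ⟨_, hδ.gen, finite_range _⟩

theorem fibredR : Fibred D := by
  rintro T _ E E' h x₀ f P hP ⟨ψ, hψ, hr, hK⟩
  have hp := pcs D hD
  choose g n m δ hδ hper using fun i => curve_isOrb (hD i) (f i x₀)
  have hδ' := fun i => isOrb_quot (hδ i) (P i) fun x hx => by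
    obtain ⟨γ, ⟨p, hp, hγ⟩, b, rfl⟩ := hP i hx
    by_cases h1 : γ = 1
    · obtain ⟨γ', h'⟩ := P002Z.exists_meridian (hD i) (f i x₀) p
      obtain ⟨l, -⟩ := hper i p hp γ' h'.localAt
      exact ⟨l, 1, 0, by rw [h1, _root_.one_pow, zpow_zero, _root_.one_mul, inv_one, _root_.mul_one]⟩
    obtain ⟨q, hq, h2⟩ := (image_loop (ContinuousMap.id _) ⟨p, tendsto_comap⟩ hγ).resolve_left
      (by rwa [map_id'])
    rw [map_id'] at h2
    obtain ⟨l, y, a, rfl⟩ := hper i q hq γ h2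
    exact ⟨l, y, a * b, by rw [conj_pow, zpow_mul, zpow_natCast]⟩
  refine q1r (q1_of _ fun ι _ R θ r s w C hw hC =>
    dense_of_family hδ' ψ hr hK R θ r s w C (fun j i => ?_) hC)
  obtain ⟨γ, ⟨p, ⟨-, h1⟩, h2⟩, h3⟩ := hw j
  rw [← h3, hψ]
  rcases image_loop (f i) (h1 i) h2 with h | ⟨q, hq, h⟩
  · exact Or.inl (by rw [h]; rfl)
  · obtain ⟨l, y, a, hy⟩ := hper i q hq _ h
    exact Or.inr ⟨l, y, a, by rw [hy]; rfl⟩

theorem fibred0 {T : Type} [TopologicalSpace T] (E : Set T) (x₀ : ↥Eᶜ)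
    (f : ∀ i, C(↥Eᶜ, ↥(D i)ᶜ)) (hr : ∀ i, (FundamentalGroup.map (f i) x₀).range.FiniteIndex)
    (hK : VirtSolv ↥(⨅ i, (FundamentalGroup.map (f i) x₀).ker)) :
    Q1R (discs (E ∩ good f) E x₀) := by
  have hp := pcs D hD
  choose g n m δ hδ hper using fun i => curve_isOrb (hD i) (f i x₀)
  refine q1r (q1_of _ fun ι _ R θ r s w C hw hC =>
    dense_of_family hδ _ hr hK R θ r s w C (fun j i => ?_) hC)
  obtain ⟨p, ⟨-, h1⟩, h2⟩ := hw j
  exact (image_loop (f i) (h1 i) h2).imp id fun ⟨q, hq, h⟩ => hper i q hq _ h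

theorem bundles : Bundles D := by
  rintro T _ E f ⟨F, _, y, _, hb, h1, h2⟩
  have := pcs D hD
  have hX : PathConnectedSpace ↥Eᶜ := pc (ContinuousMap.pi f) hb
  refine ⟨hX, fun x₀ => ?_⟩
  obtain ⟨h3, j, h4⟩ := P002B14.over f (lsc_pi ℂ D fun i => (hD i).isClosed) hb x₀ y
  have : ∀ i, Group.FG (FundamentalGroup ↥(D i)ᶜ (f i x₀)) := fun i => fgs D hD i _
  refine ⟨fg_ext _ h3 j fun a ha => h4 (Subgroup.mem_iInf.2 fun i => congrFun ha i),
    fibred0 D hD E x₀ f (fun i => ?_) (vs_of_le j h4 h2)⟩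
  have : (FundamentalGroup.map (f i) x₀).range = ⊤ := MonoidHom.range_eq_top.2 fun a => by
    obtain ⟨b, hb⟩ := h3 (Pi.mulSingle i a)
    exact ⟨b, (congrFun hb i).trans (Pi.mulSingle_eq_same
      (M := fun i => FundamentalGroup ↥(D i)ᶜ (f i x₀)) i a)⟩
  rw [this]
  infer_instance

theorem singular : Singular D := by
  intro T _ E E' h x₀ f hT hf hF
  have e : discs (E ∩ good f) E' x₀ =
      {γ | ∃ p ∈ E, (∀ i, ExtendsAt (f i) p) ∧ IsDiscLoop E' x₀ p γ} :=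
    Set.ext fun γ => exists_congr fun p => and_assoc
  have key : PathConnectedSpace ↥Eᶜ ∧
      Group.FG (FundamentalGroup ↥Eᶜ (ContinuousMap.inclusion h x₀)) ∧
      P002F.Dens _ (FundamentalGroup.map (ContinuousMap.inclusion h) x₀ ''
        {γ | ∃ p ∈ E, (∀ i, ExtendsAt (f i) p) ∧ IsDiscLoop E' x₀ p γ}) := by
    rcases hF with ⟨F, _, y, _, hb, h1, h2⟩ | ⟨_, ⟨h1, h2⟩ | ⟨_, h1, h2⟩⟩
    · exact (RS.thin_bundle D hD h hT f hf F y hb h1 h2).imp_right fun h => h x₀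
    · exact RS.thin_cover D hD h hT f hf h1 x₀ h2
    · exact RS.thin_q1 D hD h hT f hf x₀ h1 h2
  rw [e]
  exact ⟨key.1, key.2.1, q1r fun ι _ R θ r => (key.2.2 ι R θ r).2⟩

theorem products : Products D := by
  intro F _ B x₀
  refine ⟨fun h => ?_, fun h => ?_, fun i p => ?_⟩
  · have := fibred0 D hD (bdry B D) x₀ (pr B D) (pr_range B D x₀) (pr_ker B D x₀ h)
    rwa [show bdry B D ∩ good (pr B D) = bdry B D from
      inter_eq_left.2 fun p _ i => pr_extends B D i p] at this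
  · have : ∀ i, Group.FG (FundamentalGroup ↥(D i)ᶜ (pr B D i x₀)) := fun i => fgs D hD i _
    have e := MulEquiv.ofBijective _ (pr_bij B D x₀)
    exact Group.fg_of_surjective (f := e.symm.toMonoidHom) e.symm.surjective
  · have := pcs D hD i
    obtain ⟨γ, hγ⟩ := disc_exists (hD i) (pr B D i x₀) p
    exact (lift_loop B D x₀ i hγ).imp fun _ h => h.1

theorem points : PathConnectedSpace ↥(bdry (∅ : Set Unit) D)ᶜ ∧
    ∀ x₀ : ↥(bdry (∅ : Set Unit) D)ᶜ, Group.FG (FundamentalGroup _ x₀) ∧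
      Q1R (discs (bdry ∅ D) (bdry ∅ D) x₀) := by
  refine ⟨?_, fun x₀ => ?_⟩
  · have := pcs D hD
    have : PathConnectedSpace ↥(∅ : Set Unit)ᶜ :=
      ⟨⟨⟨(), fun h => h⟩⟩, fun x y => Subsingleton.elim x y ▸ Joined.refl x⟩
    exact Function.Surjective.pathConnectedSpace (f := glue ∅ D)
      (fun z => ⟨(pr₀ ∅ D z, fun i => pr ∅ D i z), rfl⟩) (glue ∅ D).continuous
  · have := sub_pi (pr₀ (∅ : Set Unit) D x₀)
    exact ⟨(products D hD Unit ∅ x₀).2.1 inferInstance,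
      (products D hD Unit ∅ x₀).1 ⟨⊤, inferInstance, inferInstance⟩⟩

omit hD in
theorem thinOk : ThinOk := fun _ _ _ _ _ _ hE hE' h => P002B14.thin_an hE hE' h

end Vale.Agent.P002E
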