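import Vale.Agent.P002D97.Defs
import Vale.Agent.P002B14.Defs2

/-!
# P002: compact form of the hypotheses on fundamental groups
-/

open Matrix

namespace Vale.Agent.P002E

open Vale.Agent.P002A Vale.Agent.P002C Vale.Agent.P002D

variable {k : ℕ}

/-- The images of the `ψ i` have finite index and the common kernel is virtually solvable. -/
def Good {G : Type} [Group G] {Q : Fin k → Type} [∀ i, Group (Q i)] (ψ : ∀ i, G →* Q i) : Prop :=
  (∀ i, (ψ i).range.FiniteIndex) ∧ VirtSolv ↥(⨅ i, (ψ i).ker)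

/-- The `φ i : G' → H i` induce along `j : G' → G` a good family `G → H i / ⟪P i⟫`. -/
def OrbGood {G' G : Type} [Group G'] [Group G] {H : Fin k → Type} [∀ i, Group (H i)]
    (j : G' →* G) (φ : ∀ i, G' →* H i) (P : ∀ i, Set (H i)) : Prop :=
  ∃ ψ : ∀ i, G →* H i ⧸ Subgroup.normalClosure (P i), (∀ i γ, ψ i (j γ) = ↑(φ i γ)) ∧ Good ψ

variable {X' X : Type} [TopologicalSpace X'] [TopologicalSpace X]

/-- The same for the homomorphisms of fundamental groups induced by continuous maps. -/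
def Induced {Y : Fin k → Type} [∀ i, TopologicalSpace (Y i)] (j : C(X', X))
    (f : ∀ i, C(X', Y i)) (x : X') (P : ∀ i, Set (FundamentalGroup (Y i) (f i x))) : Prop :=
  OrbGood (FundamentalGroup.map j x) (fun i => FundamentalGroup.map (f i) x) P

/-- `X → ∏ Y i` is a locally trivial bundle whose fibre is path connected with finitely generated,
virtually solvable fundamental group. -/
def IsBundle {Y : Fin k → Type} [∀ i, TopologicalSpace (Y i)] (f : ∀ i, C(X, Y i)) : Prop :=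
  ∃ (F : Type) (_ : TopologicalSpace F) (y : F), PathConnectedSpace F ∧
    (∀ b, ∃ e : Bundle.Trivialization F (ContinuousMap.pi f), b ∈ e.baseSet) ∧
    Group.FG (FundamentalGroup F y) ∧ VirtSolv (FundamentalGroup F y)

/-- `X → ∏ Y i` is such a bundle, or `X` is path connected and the map is a finite covering or
`π_1(X)` is finitely generated and the induced homomorphisms are a good family. -/
def Family {Y : Fin k → Type} [∀ i, TopologicalSpace (Y i)] (f : ∀ i, C(X, Y i)) (x : X) : Prop :=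
  IsBundle f ∨ PathConnectedSpace X ∧
    (IsCoveringMap (ContinuousMap.pi f) ∧ {y | ∀ i, f i y = f i x}.Finite ∨
      Group.FG (FundamentalGroup X x) ∧ Good fun i => FundamentalGroup.map (f i) x)

/-- The image of a set of loops under a continuous map. -/
def push (j : C(X', X)) (x : X') (B : Set (FundamentalGroup X' x)) :
    Set (FundamentalGroup X (j x)) :=
  FundamentalGroup.map j x '' B

/-- The disc loops of `X ∖ E'` with centre in `E`. -/
def discs (E E' : Set X) (x : ↥E'ᶜ) : Set (FundamentalGroup ↥E'ᶜ x) :=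
  {γ | ∃ p ∈ E, IsDiscLoop E' x p γ}

/-- The powers of disc loops around the points of `D`. -/
def pows (D : Set X) (x : ↥Dᶜ) : Set (FundamentalGroup ↥Dᶜ x) :=
  {a | ∃ γ ∈ discs D D x, ∃ m : ℕ, a = γ ^ m}

/-- `Rep_r` represents `A ↦ Hom(G, SL_r(A))`, and Q1 holds for `G` and `B`. -/
def Q1R {G : Type} [Group G] (B : Set G) : Prop :=
  (∀ (ι : Type) (R : Set (FreeGroup ι)) (θ : PresentedGroup R ≃* G) (r : ℕ)
    (A : Type) [CommRing A], (∀ ρ, ∃! x : ORep r R →+* A, IsPointOf θ ρ x) ∧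
      ∀ x : ORep r R →+* A, ∃! ρ, IsPointOf θ ρ x) ∧ Q1 B

variable {S : Fin k → Type} [∀ i, TopologicalSpace (S i)] {D : ∀ i, Set (S i)}

/-- The points at which all `f i` extend. -/
def good {E : Set X} (f : ∀ i, C(↥Eᶜ, ↥(D i)ᶜ)) : Set X := {p | ∀ i, ExtendsAt (f i) p}

variable (D)

/-- Spaces `T ∖ E ⊇ T ∖ E'` with maps to the orbifolds `S i ∖ D i`, `P i`. -/
def Fibred : Prop :=
  ∀ (T : Type) [TopologicalSpace T] (E E' : Set T) (h : E'ᶜ ⊆ Eᶜ) (x₀ : ↥E'ᶜ)
    (f : ∀ i, C(↥E'ᶜ, ↥(D i)ᶜ)) P, (∀ i, P i ⊆ pows (D i) (f i x₀)) →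
    Induced (ContinuousMap.inclusion h) f x₀ P →
    Q1R (push (ContinuousMap.inclusion h) x₀ (discs (E ∩ good f) E' x₀))

/-- Locally trivial bundles over `∏ (S i ∖ D i)`. -/
def Bundles : Prop :=
  ∀ (T : Type) [TopologicalSpace T] (E : Set T) (f : ∀ i, C(↥Eᶜ, ↥(D i)ᶜ)), IsBundle f →
    PathConnectedSpace ↥Eᶜ ∧ ∀ x₀ : ↥Eᶜ, Group.FG (FundamentalGroup ↥Eᶜ x₀) ∧
      Q1R (discs (E ∩ good f) E x₀)

/-- Spaces `T ∖ E` which are families over `∏ (S i ∖ D i)` outside a thin set `E'`. -/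
def Singular : Prop :=
  ∀ (T : Type) [TopologicalSpace T] (E E' : Set T) (h : E'ᶜ ⊆ Eᶜ) (x₀ : ↥E'ᶜ)
    (f : ∀ i, C(↥E'ᶜ, ↥(D i)ᶜ)), P002B14.Thin E E' → Eᶜ ⊆ good f → Family f x₀ →
    PathConnectedSpace ↥Eᶜ ∧ Group.FG (FundamentalGroup ↥Eᶜ (ContinuousMap.inclusion h x₀)) ∧
      Q1R (push (ContinuousMap.inclusion h) x₀ (discs (E ∩ good f) E' x₀))

/-- Products `(F ∖ B) × ∏ (S i ∖ D i)`. -/
def Products : Prop :=
  ∀ (F : Type) [TopologicalSpace F] (B : Set F) (x₀ : ↥(bdry B D)ᶜ),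
    (VirtSolv (FundamentalGroup ↥Bᶜ (pr₀ B D x₀)) → Q1R (discs (bdry B D) (bdry B D) x₀)) ∧
    (Group.FG (FundamentalGroup ↥Bᶜ (pr₀ B D x₀)) →
      Group.FG (FundamentalGroup ↥(bdry B D)ᶜ x₀)) ∧
    ∀ i p, ∃ γ, IsDiscLoop (bdry B D) x₀ (x₀.1.1, Function.update x₀.1.2 i p) γ

open Topology in
/-- Closed subsets of analytic hypersurfaces in spaces with charts to `ℂ^d` are thin. -/
def ThinOk : Prop :=
  ∀ (d : ℕ) (T : Type) [TopologicalSpace T] [ChartedSpace (Fin d → ℂ) T] (E E' : Set T),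
    IsClosed E → IsClosed E' → (∀ x ∉ E, ∃ g : (Fin d → ℂ) → ℂ,
      AnalyticAt ℂ g (chartAt (Fin d → ℂ) x x) ∧ ¬g =ᶠ[𝓝 (chartAt (Fin d → ℂ) x x)] 0 ∧
      ∀ᶠ y in 𝓝 x, y ∈ E' → g (chartAt (Fin d → ℂ) x y) = 0) → P002B14.Thin E E'

end Vale.Agent.P002E
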